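import Vale.Agent.P110.Count

/-!
Exponential moments of signed sums, and the number of integer vectors of small `ℓ¹` norm.
-/

open Finset Real

namespace Vale.Agent.P110.Exist.Colouring

/-- `±1` as a real number. -/
noncomputable def sgn (b : Bool) : ℝ := if b then 1 else -1

/-- The signed sum of row `j`. -/
noncomputable def rowSum {α ι : Type*} [Fintype α] (a : ι → α → ℝ) (σ : α → Bool) (j : ι) : ℝ :=
  ∑ k, a j k * sgn (σ k)

lemma sum_exp_rowSum {α ι : Type*} [Fintype α] [DecidableEq α] (a : ι → α → ℝ)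
    (ha : ∀ j k, |a j k| ≤ 1) (j : ι) (μ : ℝ) :
    ∑ σ : α → Bool, exp (μ * rowSum a σ j) ≤
      2 ^ Fintype.card α * exp (Fintype.card α * μ ^ 2 / 2) := by
  have h : ∀ σ : α → Bool,
      exp (μ * rowSum a σ j) = ∏ k, exp (μ * (a j k * sgn (σ k))) := by
    intro σ
    rw [rowSum, mul_sum, exp_sum]
  simp only [h]
  rw [← Fintype.prod_sum (fun k b => exp (μ * (a j k * sgn b)))]
  calc ∏ k, ∑ b : Bool, exp (μ * (a j k * sgn b))
      ≤ ∏ _k : α, 2 * exp (μ ^ 2 / 2) := by
        refine prod_le_prod (fun k _ => by positivity) fun k _ => ?_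
        have h2 : ∑ b : Bool, exp (μ * (a j k * sgn b)) = 2 * cosh (μ * a j k) := by
          rw [Fintype.sum_bool, cosh_eq]
          simp [sgn]
          ring
        rw [h2]
        refine mul_le_mul_of_nonneg_left
          ((cosh_le_exp_half_sq _).trans (exp_le_exp.2 ?_)) (by norm_num)
        have h1 := ha j k
        have : a j k ^ 2 ≤ 1 := by
          rw [← sq_abs]; nlinarith [abs_nonneg (a j k)]
        nlinarith [sq_nonneg μ]
    _ = 2 ^ Fintype.card α * exp (Fintype.card α * μ ^ 2 / 2) := by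
        rw [prod_const, card_univ, mul_pow, ← exp_nat_mul]
        congr 2; ring

/-- The nearest integer is dominated by an exponential. -/
lemma abs_round_le (y l : ℝ) (hl : 1 ≤ l) :
    |(round y : ℝ)| ≤ exp (-l / 2) * (exp (l * y) + exp (-(l * y))) := by
  by_cases h0 : round y = 0
  · simp [h0]; positivity
  have h1 : (1 : ℝ) ≤ |(round y : ℝ)| := by exact_mod_cast Int.one_le_abs h0
  have h2 : |(round y : ℝ)| ≤ |y| + 1 / 2 := by
    have h := abs_sub_round y
    have := abs_sub_abs_le_abs_sub (round y : ℝ) y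
    rw [abs_sub_comm] at h
    linarith
  have h3 : |y| + 1 / 2 ≤ exp (-l / 2) * exp (l * |y|) := by
    rw [← exp_add]
    refine le_trans ?_ (add_one_le_exp _)
    nlinarith [mul_nonneg (show (0 : ℝ) ≤ l - 1 by linarith)
      (show (0 : ℝ) ≤ |y| - 1 / 2 by linarith)]
  have h4 : exp (l * |y|) ≤ exp (l * y) + exp (-(l * y)) := by
    rcases abs_choice y with h | h <;> rw [h]
    · linarith [exp_pos (-(l * y))]
    · rw [mul_neg]; linarith [exp_pos (l * y)]
  exact h2.trans (h3.trans (mul_le_mul_of_nonneg_left h4 (exp_pos _).le))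

lemma geom_Icc (t : ℝ) (ht0 : 0 ≤ t) (ht : t ≤ 1 / 2) (R : ℕ) :
    ∑ z ∈ Icc (-(R : ℤ)) R, t ^ z.natAbs ≤ 1 + 4 * t - 4 * t ^ (R + 1) := by
  induction R with
  | zero => simp
  | succ R ih =>
    have hI : Icc (-((R + 1 : ℕ) : ℤ)) (R + 1 : ℕ) =
        insert (-((R : ℤ) + 1)) (insert ((R : ℤ) + 1) (Icc (-(R : ℤ)) R)) := by
      ext z; simp only [mem_Icc, mem_insert]; push_cast; omega
    rw [hI, sum_insert (by simp only [mem_insert, mem_Icc]; omega),
      sum_insert (by simp only [mem_Icc]; omega),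
      show (-((R : ℤ) + 1)).natAbs = R + 1 by omega, show ((R : ℤ) + 1).natAbs = R + 1 by omega]
    have hp : (0 : ℝ) ≤ t ^ (R + 1) := by positivity
    rw [pow_succ t (R + 1)]
    nlinarith

lemma count_vectors {ι : Type*} [Fintype ι] [DecidableEq ι] (F : Finset (ι → ℤ)) (t w : ℝ)
    (ht0 : 0 < t) (ht : t ≤ 1 / 2) (hw : ∀ T ∈ F, ∑ j, |(T j : ℝ)| ≤ w) :
    (F.card : ℝ) ≤ exp (4 * t * Fintype.card ι + w * -log t) := by
  set R := ⌈w⌉₊
  have hF : F ⊆ Fintype.piFinset fun _ : ι => Icc (-(R : ℤ)) R := by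
    intro T hT
    simp only [Fintype.mem_piFinset, mem_Icc]
    intro j
    have h1 : |(T j : ℝ)| ≤ R :=
      (single_le_sum (f := fun j => |(T j : ℝ)|) (fun i _ => abs_nonneg _) (mem_univ j)).trans
        ((hw T hT).trans (Nat.le_ceil w))
    rw [abs_le] at h1
    constructor
    · exact_mod_cast h1.1
    · exact_mod_cast h1.2
  have hl : log t ≤ 0 := log_nonpos ht0.le (by linarith)
  have h1 : (F.card : ℝ) * exp (w * log t) ≤ exp (4 * t * Fintype.card ι) := by
    calc (F.card : ℝ) * exp (w * log t) = ∑ _T ∈ F, exp (w * log t) := by simp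
      _ ≤ ∑ T ∈ F, ∏ j, t ^ (T j).natAbs := by
          refine sum_le_sum fun T hT => ?_
          rw [prod_pow_eq_pow_sum, ← exp_log (pow_pos ht0 _), log_pow]
          refine exp_le_exp.2 (mul_le_mul_of_nonpos_right ?_ hl)
          simpa [Nat.cast_sum, Nat.cast_natAbs] using hw T hT
      _ ≤ ∑ T ∈ Fintype.piFinset fun _ : ι => Icc (-(R : ℤ)) R, ∏ j, t ^ (T j).natAbs :=
          sum_le_sum_of_subset_of_nonneg hF fun _ _ _ => by positivity
      _ = ∏ _j : ι, ∑ z ∈ Icc (-(R : ℤ)) R, t ^ z.natAbs :=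
          Eq.symm (prod_univ_sum (fun _ : ι => Icc (-(R : ℤ)) R) fun _ z => t ^ z.natAbs)
      _ ≤ ∏ _j : ι, exp (4 * t) := by
          refine prod_le_prod (fun j _ => by positivity) fun j _ => ?_
          have := geom_Icc t ht0.le ht R
          linarith [add_one_le_exp (4 * t), pow_nonneg ht0.le (R + 1)]
      _ = exp (4 * t * Fintype.card ι) := by
          rw [prod_const, card_univ, ← exp_nat_mul, mul_comm]
  rw [← le_div_iff₀ (exp_pos _), ← exp_sub] at h1
  refine h1.trans_eq ?_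
  congr 1; ring

end Vale.Agent.P110.Exist.Colouring
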